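import Mathlib
import Vale.Agent.Lib.P194.McCoy

/-!
P194 (direct finiteness of group algebras): the group algebra `R[G]` over any commutative
ring `R` (in particular over any field) is directly finite whenever `G` admits a group
homomorphism with central kernel into a group with the unique product property.
-/

namespace Vale.Agent.Results.P194.CentralUPP

theorem result (R : Type*) [CommRing R] (G H : Type*) [Group G] [Group H] [UniqueProds H]
    (π : G →* H) (hπ : π.ker ≤ Subgroup.center G)
    (a b : MonoidAlgebra R G) (hab : a * b = 1) : b * a = 1 :=
  Vale.Agent.Lib.P194.directlyFinite_of_central_ker R π hπ a b hab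

end Vale.Agent.Results.P194.CentralUPP
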